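import Vale.Agent.P111.TK.H
import Vale.Agent.P111.TW.Step
import Vale.Agent.P111.QL.Defs

/-!
Bounded functions on the cube with values in the dual of a `K`-convex space have a bounded number
of large Fourier coefficients.
-/

set_option linter.unusedSectionVars false

namespace Vale.Agent.P111.TI2

open Finset Vale.Agent.P111 Vale.Agent.P111.TK Vale.Agent.P111.TW

section indep

variable {D : ℕ}

/-- A set without large independent subfamilies is small. -/
theorem card_le_of_indep {B : Finset (Fin D → ℤˣ)} {s₀ : ℕ}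
    (h : ∀ (s : ℕ) (J : Fin s → Fin D → ℤˣ), (∀ i, J i ∈ B) →
      (∀ T : Finset (Fin s), T.Nonempty → JT J T ≠ 1) → s ≤ s₀) : #B ≤ 2 ^ s₀ := by
  classical
  by_contra hB
  rw [not_le] at hB
  have key : ∀ s : ℕ, s ≤ s₀ + 1 → ∃ J : Fin s → Fin D → ℤˣ, (∀ i, J i ∈ B) ∧
      ∀ T : Finset (Fin s), T.Nonempty → JT J T ≠ 1 := by
    intro s
    induction s with
    | zero =>
      intro _
      exact ⟨Fin.elim0, fun i => i.elim0, fun T hT => absurd hT (by
        rw [Finset.eq_empty_of_isEmpty T]; simp)⟩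
    | succ s ih =>
      intro hs
      obtain ⟨J, hJB, hJ⟩ := ih (by omega)
      have h1 : #((Finset.univ : Finset (Finset (Fin s))).image fun T => JT J T) < #B := by
        refine lt_of_le_of_lt Finset.card_image_le (lt_of_le_of_lt ?_ hB)
        rw [Finset.card_univ, Fintype.card_finset, Fintype.card_fin]
        exact Nat.pow_le_pow_right (by norm_num) (by omega)
      obtain ⟨x, hxB, hx⟩ := Finset.exists_mem_notMem_of_card_lt_card h1
      refine ⟨Fin.cons x J, ?_, ?_⟩
      · intro i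
        refine Fin.cases ?_ (fun i => ?_) i
        · simpa using hxB
        · simpa using hJB i
      · intro T hT hT1
        -- the part of `T` in the tail
        set T' : Finset (Fin s) := Finset.univ.filter fun i => i.succ ∈ T with hT'
        have hsplit : JT (Fin.cons x J : Fin (s + 1) → Fin D → ℤˣ) T =
            (if (0 : Fin (s + 1)) ∈ T then x else 1) * JT J T' := by
          unfold JT
          rw [← Finset.prod_filter_mul_prod_filter_not T (fun i => i = 0)]
          congr 1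
          · by_cases h0 : (0 : Fin (s + 1)) ∈ T
            · rw [if_pos h0]
              have : T.filter (fun i => i = 0) = {0} := by
                ext i
                simp only [Finset.mem_filter, Finset.mem_singleton]
                constructor
                · exact fun h => h.2
                · rintro rfl
                  exact ⟨h0, rfl⟩
              rw [this, Finset.prod_singleton, Fin.cons_zero]
            · rw [if_neg h0]
              have : T.filter (fun i => i = 0) = ∅ := by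
                ext i
                simp only [Finset.mem_filter, Finset.notMem_empty, iff_false, not_and]
                rintro h rfl
                exact h0 h
              rw [this, Finset.prod_empty]
          · have : T.filter (fun i => ¬ i = 0) = T'.map (Fin.succEmb s) := by
              ext i
              simp only [Finset.mem_filter, Finset.mem_map, hT', Finset.mem_univ, true_and,
                Fin.coe_succEmb]
              constructor
              · rintro ⟨h1, h2⟩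
                obtain ⟨j, rfl⟩ := Fin.exists_succ_eq.mpr h2
                exact ⟨j, h1, rfl⟩
              · rintro ⟨j, h1, rfl⟩
                exact ⟨h1, Fin.succ_ne_zero j⟩
            rw [this, Finset.prod_map]
            simp only [Fin.coe_succEmb, Fin.cons_succ]
        rw [hsplit] at hT1
        by_cases h0 : (0 : Fin (s + 1)) ∈ T
        · rw [if_pos h0] at hT1
          have h2 : x = JT J T' := (mul_eq_one_iff_eq' x (JT J T')).mp hT1
          exact hx (Finset.mem_image.mpr ⟨T', Finset.mem_univ _, h2.symm⟩)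
        · rw [if_neg h0, one_mul] at hT1
          have h3 : ¬ T'.Nonempty := fun h => hJ T' h hT1
          rw [Finset.not_nonempty_iff_eq_empty] at h3
          obtain ⟨i, hi⟩ := hT
          have hi0 : i ≠ 0 := by
            rintro rfl
            exact h0 hi
          obtain ⟨j, rfl⟩ := Fin.exists_succ_eq.mpr hi0
          have : j ∈ T' := by
            rw [hT', Finset.mem_filter]
            exact ⟨Finset.mem_univ _, hi⟩
          rw [h3] at this
          exact Finset.notMem_empty j this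
  obtain ⟨J, hJB, hJ⟩ := key (s₀ + 1) le_rfl
  have := h (s₀ + 1) J hJB hJ
  omega

variable {s : ℕ} {W : Type*} [NormedAddCommGroup W] [NormedSpace ℝ W]

/-- the weight of the conditional expectation -/
noncomputable def wt (J : Fin s → Fin D → ℤˣ) (ε : Fin s → ℤˣ) (x : Fin D → ℤˣ) : ℝ :=
  ∏ i, (1 + sg (ε i) * sg (chi (J i) x))

theorem wt_nonneg (J : Fin s → Fin D → ℤˣ) (ε : Fin s → ℤˣ) (x : Fin D → ℤˣ) :
    0 ≤ wt J ε x := by
  unfold wt
  refine Finset.prod_nonneg fun i _ => ?_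
  have := abs_le.mp (abs_sg (ε i * chi (J i) x)).le
  rw [sg_mul] at this
  linarith [this.1]

theorem avg_wt {J : Fin s → Fin D → ℤˣ} (hJ : ∀ T : Finset (Fin s), T.Nonempty → JT J T ≠ 1)
    (ε : Fin s → ℤˣ) : avg (wt J ε) = 1 := by
  have h2 := avg_indep hJ (fun η : Fin s → ℤˣ => ∏ i, (1 + sg (ε i) * sg (η i)))
  simp only at h2
  have h3 : avg (wt J ε) = avg fun g : Fin D → ℤˣ => ∏ i, (1 + sg (ε i) * sg (chi (J i) g)) := rfl
  rw [h3, h2, avg_pi_prod fun i (u : ℤˣ) => 1 + sg (ε i) * sg u]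
  refine Finset.prod_eq_one fun i _ => ?_
  rw [avg_units]
  simp only [sg_one, sg_neg_one]
  ring

/-- the conditional expectation -/
noncomputable def fold (J : Fin s → Fin D → ℤˣ) (ψ : (Fin D → ℤˣ) → W) (ε : Fin s → ℤˣ) : W :=
  avg fun x : Fin D → ℤˣ => wt J ε x • ψ x

theorem norm_fold_le {J : Fin s → Fin D → ℤˣ}
    (hJ : ∀ T : Finset (Fin s), T.Nonempty → JT J T ≠ 1) {ψ : (Fin D → ℤˣ) → W} {β : ℝ}
    (hψ : ∀ x, ‖ψ x‖ ≤ β) (ε : Fin s → ℤˣ) : ‖fold J ψ ε‖ ≤ β := by
  refine (H1.norm_avg_le _).trans ?_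
  have h1 : (avg fun x : Fin D → ℤˣ => ‖wt J ε x • ψ x‖) ≤
      avg fun x : Fin D → ℤˣ => wt J ε x * β := by
    refine avg_mono fun x => ?_
    rw [norm_smul, Real.norm_of_nonneg (wt_nonneg J ε x)]
    exact mul_le_mul_of_nonneg_left (hψ x) (wt_nonneg J ε x)
  refine h1.trans (le_of_eq ?_)
  rw [avg_mul_right]
  have : (avg fun x : Fin D → ℤˣ => wt J ε x) = 1 := avg_wt hJ ε
  rw [this, one_mul]

theorem avg_mul_wt (i : Fin s) (u : Fin s → ℤˣ) :
    (avg fun ε : Fin s → ℤˣ => sg (ε i) * ∏ j, (1 + sg (ε j) * sg (u j))) = sg (u i) := by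
  classical
  have h1 : ∀ ε : Fin s → ℤˣ, sg (ε i) * ∏ j, (1 + sg (ε j) * sg (u j)) =
      ∏ j, (fun (j : Fin s) (t : ℤˣ) => (if j = i then sg t else 1) * (1 + sg t * sg (u j))) j
        (ε j) := by
    intro ε
    rw [Finset.prod_mul_distrib, Finset.prod_ite_eq' Finset.univ i fun j => sg (ε j),
      if_pos (Finset.mem_univ i)]
  rw [avg_congr h1, avg_pi_prod fun (j : Fin s) (t : ℤˣ) =>
    (if j = i then sg t else 1) * (1 + sg t * sg (u j))]
  have h2 : ∀ j : Fin s, (avg fun t : ℤˣ => (if j = i then sg t else 1) * (1 + sg t * sg (u j))) =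
      if j = i then sg (u j) else 1 := by
    intro j
    rw [avg_units]
    by_cases hj : j = i
    · simp only [if_pos hj, sg_one, sg_neg_one]
      ring
    · simp only [if_neg hj, sg_one, sg_neg_one]
      ring
  simp only [h2]
  rw [Finset.prod_ite_eq' Finset.univ i fun j => sg (u j), if_pos (Finset.mem_univ i)]

theorem wc_fold (J : Fin s → Fin D → ℤˣ) (ψ : (Fin D → ℤˣ) → W) (i : Fin s) :
    wc {i} (fold J ψ) = avg fun x : Fin D → ℤˣ => sg (chi (J i) x) • ψ x := by
  have h1 : wc {i} (fold J ψ) = avg fun ε : Fin s → ℤˣ => avg fun x : Fin D → ℤˣ =>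
      (sg (ε i) * wt J ε x) • ψ x := by
    rw [wc]
    refine avg_congr fun ε => ?_
    rw [walsh_singleton, fold, ← avg_smul]
    exact avg_congr fun x => smul_smul _ _ _
  rw [h1, avg_comm]
  refine avg_congr fun x => ?_
  have h2 : (avg fun ε : Fin s → ℤˣ => (sg (ε i) * wt J ε x) • ψ x) =
      (avg fun ε : Fin s → ℤˣ => sg (ε i) * wt J ε x) • ψ x := by
    simp only [avg, ← Finset.sum_smul, smul_assoc]
  rw [h2]
  congr 1
  exact avg_mul_wt i fun j => chi (J j) x

end indep

section kconv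

variable {V : Type*} [NormedAddCommGroup V] [NormedSpace ℝ V] {s : ℕ}

theorem exists_norming (φ : V →L[ℝ] ℝ) : ∃ v : V, ‖v‖ ≤ 1 ∧ ‖φ‖ / 2 ≤ φ v := by
  by_cases hn : ‖φ‖ = 0
  · exact ⟨0, by rw [norm_zero]; exact zero_le_one, by rw [hn, map_zero]; simp⟩
  · have hn' : 0 < ‖φ‖ := lt_of_le_of_ne (norm_nonneg _) (Ne.symm hn)
    obtain ⟨x, hx1, hx2⟩ := φ.exists_lt_apply_of_lt_opNorm (r := ‖φ‖ / 2) (by linarith)
    rw [Real.norm_eq_abs] at hx2
    rcases le_total 0 (φ x) with h | h
    · rw [abs_of_nonneg h] at hx2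
      exact ⟨x, hx1.le, hx2.le⟩
    · rw [abs_of_nonpos h] at hx2
      exact ⟨-x, by rw [norm_neg]; exact hx1.le, by rw [map_neg]; exact hx2.le⟩

theorem avg_le_sqrt {Ω : Type*} [Fintype Ω] [Nonempty Ω] (f : Ω → ℝ) :
    avg f ≤ (avg fun ω => f ω ^ 2) ^ (1 / 2 : ℝ) := by
  rw [← Real.sqrt_eq_rpow]
  refine Real.le_sqrt_of_sq_le ?_
  exact H1.sq_avg_le f

/-- Bounded functions with values in the dual of a `K`-convex space. -/
theorem rad_bound {K β : ℝ} (hK0 : 0 ≤ K) (hβ : 0 ≤ β) (hK : KConvexWith K V)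
    (ψ : (Fin s → ℤˣ) → (V →L[ℝ] ℝ)) (hψ : ∀ x, ‖ψ x‖ ≤ β) :
    (avg fun ε : Fin s → ℤˣ => ‖∑ i, sg (ε i) • wc {i} ψ‖ ^ 2) ^ (1 / 2 : ℝ) ≤
      2 * (β * K) := by
  set F : (Fin s → ℤˣ) → (V →L[ℝ] ℝ) := fun ε => ∑ i, sg (ε i) • wc {i} ψ with hF
  set A : ℝ := avg fun ε : Fin s → ℤˣ => ‖F ε‖ ^ 2 with hA
  have hA0 : 0 ≤ A := avg_nonneg fun _ => sq_nonneg _
  choose v hv1 hv2 using fun ε => exists_norming (F ε)
  set y : (Fin s → ℤˣ) → V := fun ε => ‖F ε‖ • v ε with hy
  have hy1 : ∀ ε, ‖y ε‖ ≤ ‖F ε‖ := by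
    intro ε
    rw [hy]
    simp only
    rw [norm_smul, norm_norm]
    exact mul_le_of_le_one_right (norm_nonneg _) (hv1 ε)
  have hy2 : ∀ ε, ‖F ε‖ ^ 2 / 2 ≤ F ε (y ε) := by
    intro ε
    rw [hy]
    simp only
    rw [map_smul, smul_eq_mul]
    have := mul_le_mul_of_nonneg_left (hv2 ε) (norm_nonneg (F ε))
    nlinarith
  have h1 : A / 2 ≤ avg fun ε => F ε (y ε) := by
    have : A / 2 = avg fun ε : Fin s → ℤˣ => ‖F ε‖ ^ 2 / 2 := by
      rw [hA]
      have := avg_mul_right (1 / 2 : ℝ) fun ε : Fin s → ℤˣ => ‖F ε‖ ^ 2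
      rw [div_eq_mul_one_div, ← this]
      exact avg_congr fun ε => by ring
    rw [this]
    exact avg_mono hy2
  have h2 : (avg fun ε => F ε (y ε)) = avg fun x => ψ x (rad y x) := by
    have e1 : ∀ ε, F ε (y ε) = ∑ i, (wc {i} ψ) (sg (ε i) • y ε) := by
      intro ε
      rw [hF]
      simp only
      rw [_root_.sum_apply]
      refine Finset.sum_congr rfl fun i _ => ?_
      exact (_root_.smul_apply _ _ _).trans ((wc {i} ψ).map_smul _ _).symm
    have e2 : ∀ x, ψ x (rad y x) = ∑ i, (sg (x i) • ψ x) (avg fun η : Fin s → ℤˣ =>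
        sg (η i) • y η) := by
      intro x
      rw [rad, map_sum]
      refine Finset.sum_congr rfl fun i _ => ?_
      rw [_root_.smul_apply, map_smul]
    simp only [e1, e2]
    rw [avg_sum, avg_sum]
    refine Finset.sum_congr rfl fun i _ => ?_
    rw [← clm_avg, ← avg_apply', wc]
    congr 1
    exact avg_congr fun ω => by rw [walsh_singleton]
  have h3 : (avg fun x => ψ x (rad y x)) ≤ β * (K * A ^ (1 / 2 : ℝ)) := by
    calc (avg fun x => ψ x (rad y x)) ≤ avg fun x => β * ‖rad y x‖ := by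
          refine avg_mono fun x => ?_
          refine (le_abs_self _).trans ?_
          rw [← Real.norm_eq_abs]
          exact ((ψ x).le_opNorm _).trans (mul_le_mul_of_nonneg_right (hψ x) (norm_nonneg _))
      _ = β * avg fun x => ‖rad y x‖ := avg_mul_left _ _
      _ ≤ β * (K * A ^ (1 / 2 : ℝ)) := by
          refine mul_le_mul_of_nonneg_left ?_ hβ
          refine (avg_le_sqrt _).trans ((hK s y).trans ?_)
          refine mul_le_mul_of_nonneg_left ?_ hK0
          refine Real.rpow_le_rpow (avg_nonneg fun _ => sq_nonneg _) ?_ (by norm_num)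
          refine avg_mono fun ε => ?_
          have := hy1 ε
          gcongr
  have h4 : A ≤ 2 * (β * K) * A ^ (1 / 2 : ℝ) := by
    rw [h2] at h1
    nlinarith
  rcases hA0.eq_or_lt with h0 | h0
  · rw [← h0, Real.zero_rpow (by norm_num)]
    positivity
  · have h5 : 0 < A ^ (1 / 2 : ℝ) := Real.rpow_pos_of_pos h0 _
    have h6 : A = A ^ (1 / 2 : ℝ) * A ^ (1 / 2 : ℝ) := by
      rw [← Real.rpow_add h0]
      norm_num
    rw [h6] at h4
    have h7 : A ^ (1 / 2 : ℝ) * A ^ (1 / 2 : ℝ) ≤ 2 * (β * K) * A ^ (1 / 2 : ℝ) := by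
      have e3 : (A ^ (1 / 2 : ℝ) * A ^ (1 / 2 : ℝ)) ^ (1 / 2 : ℝ) = A ^ (1 / 2 : ℝ) := by
        rw [← h6]
      rw [e3] at h4
      exact h4
    exact le_of_mul_le_mul_right h7 h5

/-- The number of large Rademacher coefficients. -/
theorem rad_count {K β r C ε : ℝ} (hr : 2 ≤ r) (hC : 0 ≤ C) (hK0 : 0 ≤ K) (hβ : 0 ≤ β)
    (hε : 0 < ε) (hK : KConvexWith K V) (hV : CotypeWith r C (V →L[ℝ] ℝ))
    (ψ : (Fin s → ℤˣ) → (V →L[ℝ] ℝ)) (hψ : ∀ x, ‖ψ x‖ ≤ β) (h : ∀ i, ε ≤ ‖wc {i} ψ‖) :
    (s : ℝ) ≤ (C * (2 * (β * K)) / ε) ^ r := by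
  have hr0 : 0 < r := by linarith
  have h1 := (hV s fun i => wc {i} ψ).trans
    (mul_le_mul_of_nonneg_left (rad_bound hK0 hβ hK ψ hψ) hC)
  have h2 : ((s : ℝ) * ε ^ r) ^ (1 / r) ≤ (∑ i : Fin s, ‖wc {i} ψ‖ ^ r) ^ (1 / r) := by
    refine Real.rpow_le_rpow (by positivity) ?_ (by positivity)
    calc (s : ℝ) * ε ^ r = ∑ _i : Fin s, ε ^ r := by
          rw [Finset.sum_const, Finset.card_univ, Fintype.card_fin, nsmul_eq_mul]
      _ ≤ _ := Finset.sum_le_sum fun i _ => Real.rpow_le_rpow hε.le (h i) hr0.le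
  have h3 := h2.trans h1
  rw [Real.mul_rpow (Nat.cast_nonneg s) (by positivity), ← Real.rpow_mul hε.le,
    mul_one_div_cancel hr0.ne', Real.rpow_one] at h3
  have h4 : (s : ℝ) ^ (1 / r) ≤ C * (2 * (β * K)) / ε := by
    rwa [le_div_iff₀ hε]
  calc (s : ℝ) = ((s : ℝ) ^ (1 / r)) ^ r := by
        rw [← Real.rpow_mul (Nat.cast_nonneg s), one_div_mul_cancel hr0.ne', Real.rpow_one]
    _ ≤ _ := Real.rpow_le_rpow (by positivity) h4 hr0.le

end kconv

end Vale.Agent.P111.TI2
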