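import Vale.Agent.P111.SY.Lift
import Vale.Agent.P111.TW.Asm

/-!
Translation invariant norms on vector valued functions on the cube: equivariant lifts.
-/

set_option linter.unusedSectionVars false

namespace Vale.Agent.P111.TI2

open Finset Vale.Agent.P111 Vale.Agent.P111.TK Vale.Agent.P111.TW

/-- The norm on `V`-valued functions on the cube is given by the linear isomorphism `e`. -/
structure AdmT (C : ℝ) {D : ℕ} {V E : Type*} [NormedAddCommGroup V] [NormedSpace ℝ V]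
    [NormedAddCommGroup E] [NormedSpace ℝ E] (e : E ≃ₗ[ℝ] ((Fin D → ℤˣ) → V)) : Prop where
  sup_le : ∀ f x, ‖e f x‖ ≤ C * ‖f‖
  trans : ∀ (g : Fin D → ℤˣ) f, ‖e.symm (fun x => e f (g * x))‖ ≤ ‖f‖
  char : ∀ (S : Finset (Fin D)) (v : V), ‖e.symm (fun x => walsh S x • v)‖ ≤ C * ‖v‖

section ulift

variable {D M : ℕ} {V E : Type*} [NormedAddCommGroup V] [NormedSpace ℝ V]
    [NormedAddCommGroup E] [NormedSpace ℝ E] {e : E ≃ₗ[ℝ] ((Fin D → ℤˣ) → V)} {C : ℝ}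

/-- Translation. -/
def tr (e : E ≃ₗ[ℝ] ((Fin D → ℤˣ) → V)) (g : Fin D → ℤˣ) : E →ₗ[ℝ] E where
  toFun f := e.symm fun x => e f (g * x)
  map_add' f f' := by
    rw [← map_add]
    congr 1
    funext x
    rw [map_add, Pi.add_apply, Pi.add_apply]
  map_smul' s f := by
    rw [RingHom.id_apply, ← map_smul]
    congr 1
    funext x
    rw [map_smul, Pi.smul_apply, Pi.smul_apply]

theorem e_tr (g : Fin D → ℤˣ) (f : E) (x : Fin D → ℤˣ) : e (tr e g f) x = e f (g * x) := by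
  change e (e.symm _) x = _
  rw [e.apply_symm_apply]

/-- `χ_J ⊗ v` -/
def ch (e : E ≃ₗ[ℝ] ((Fin D → ℤˣ) → V)) (J : Fin D → ℤˣ) : V →ₗ[ℝ] E where
  toFun v := e.symm fun y => sg (chi J y) • v
  map_add' v v' := by
    rw [← map_add]
    congr 1
    funext y
    rw [Pi.add_apply, smul_add]
  map_smul' s v := by
    rw [RingHom.id_apply, ← map_smul]
    congr 1
    funext y
    rw [Pi.smul_apply, smul_comm]

theorem e_ch (J : Fin D → ℤˣ) (v : V) (y : Fin D → ℤˣ) : e (ch e J v) y = sg (chi J y) • v := by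
  change e (e.symm _) y = _
  rw [e.apply_symm_apply]

theorem norm_ch_le (he : AdmT C e) (J : Fin D → ℤˣ) (v : V) : ‖ch e J v‖ ≤ C * ‖v‖ := by
  have h1 : ch e J v = e.symm fun y => walsh (neg J) y • v := by
    change (e.symm fun y => sg (chi J y) • v) = _
    simp only [sg_chi]
  rw [h1]
  exact he.char (neg J) v

theorem eval_avg {Ω : Type*} [Fintype Ω] (f : Ω → E) (y : Fin D → ℤˣ) :
    e (avg f) y = avg fun ω => e (f ω) y := by
  have h1 : e (avg f) = avg fun ω => e (f ω) := Vale.Agent.P111.map_avg e.toLinearMap f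
  rw [h1]
  simp only [avg, Pi.smul_apply, Finset.sum_apply]

theorem u_lift {r : ℝ} (hr : 2 ≤ r) (hC : 1 ≤ C) (he : AdmT C e)
    (hE : CotypeWith r C (E →L[ℝ] ℝ)) (J : Fin M → Fin D → ℤˣ) (v₀ : V) (hv₀ : ‖v₀‖ = 1) :
    ∃ (c : Finset (Fin M) → V) (Z : (Fin M → ℤˣ) → E),
      (∀ ε, ‖Z ε‖ ≤ 3 * C ^ 2 * (M : ℝ) ^ (1 - 1 / r) + 1) ∧ (∀ ε, Z (-ε) = - Z ε) ∧
      (∀ T, wc T Z = ch e (JT J T) (c T)) ∧ ∀ i, c {i} = v₀ := by
  obtain ⟨Z, hZ1, hZ2, hZ3⟩ := SY.lift_gen (m := M) hr (by linarith)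
    (by linarith : (0:ℝ) ≤ C) hE (fun i => ch e (J i) v₀) (fun i => by
      have := norm_ch_le he (J i) v₀
      rwa [hv₀, mul_one] at this) one_pos
  refine ⟨fun T => avg fun g : Fin D → ℤˣ => walsh T (fun i => chi (J i) g) • e (wc T Z) g,
    fun ε => avg fun g : Fin D → ℤˣ => tr e g (Z ((fun i => chi (J i) g) * ε)), ?_, ?_, ?_, ?_⟩
  · intro ε
    refine (H1.norm_avg_le _).trans ?_
    have h1 : (avg fun g : Fin D → ℤˣ => ‖tr e g (Z ((fun i => chi (J i) g) * ε))‖) ≤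
        avg fun _ : Fin D → ℤˣ => (3 * C * C * (M : ℝ) ^ (1 - 1 / r) + 1) :=
      avg_mono fun g => (he.trans g _).trans (hZ1 _)
    rw [avg_const] at h1
    refine h1.trans (le_of_eq ?_)
    ring
  · intro ε
    rw [← avg_neg]
    refine avg_congr fun g => ?_
    rw [mul_neg, hZ2, map_neg]
  · intro T
    have h1 : wc T (fun ε => avg fun g : Fin D → ℤˣ => tr e g (Z ((fun i => chi (J i) g) * ε))) =
        avg fun g : Fin D → ℤˣ => tr e g (walsh T (fun i => chi (J i) g) • wc T Z) := by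
      have h2 : ∀ g : Fin D → ℤˣ, (avg fun ε : Fin M → ℤˣ =>
          walsh T ε • tr e g (Z ((fun i => chi (J i) g) * ε))) =
          tr e g (walsh T (fun i => chi (J i) g) • wc T Z) := by
        intro g
        rw [← wc_translate T Z (fun i => chi (J i) g), wc, Vale.Agent.P111.map_avg (tr e g)]
        exact avg_congr fun ε => (map_smul (tr e g) _ _).symm
      rw [wc]
      simp only [← avg_smul]
      rw [avg_comm]
      exact avg_congr h2
    rw [h1]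
    apply e.injective
    funext y
    rw [eval_avg, e_ch, ← avg_smul, ← avg_comp_equiv (Equiv.mulRight y)]
    refine avg_congr fun g => ?_
    rw [Equiv.coe_mulRight, e_tr, map_smul, Pi.smul_apply]
    have h4 : g * y * y = g := by rw [mul_assoc, pi_mul_self, mul_one]
    have h5 : (fun i => chi (J i) (g * y)) =
        (fun i => chi (J i) g) * fun i => chi (J i) y := by
      funext i
      rw [Pi.mul_apply, chi_mul_right]
    rw [h4, h5, walsh_mul, walsh_chi' J T y, smul_smul, mul_comm]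
  · intro i
    have h1 : ∀ g : Fin D → ℤˣ, walsh {i} (fun i => chi (J i) g) • e (wc {i} Z) g = v₀ := by
      intro g
      rw [walsh_singleton, hZ3 i, e_ch, smul_smul, sg_mul_self, one_smul]
    change (avg fun g : Fin D → ℤˣ => walsh {i} (fun i => chi (J i) g) • e (wc {i} Z) g) = v₀
    rw [avg_congr h1]
    exact avg_const _

end ulift

section vlift

variable {D M' : ℕ} {V E : Type*} [NormedAddCommGroup V] [NormedSpace ℝ V]
    [NormedAddCommGroup E] [NormedSpace ℝ E] {e : E ≃ₗ[ℝ] ((Fin D → ℤˣ) → V)} {C : ℝ}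

/-- the functional `w₀ ∘ ev_x` -/
noncomputable def ev (_hC : 0 ≤ C) (he : AdmT C e) (w₀ : V →L[ℝ] ℝ) (hw₀ : ‖w₀‖ ≤ 1)
    (x : Fin D → ℤˣ) : E →L[ℝ] ℝ :=
  LinearMap.mkContinuous
    { toFun := fun f => w₀ (e f x)
      map_add' := fun f g => by rw [map_add, Pi.add_apply, map_add]
      map_smul' := fun s f => by rw [map_smul, Pi.smul_apply, map_smul, RingHom.id_apply] }
    C (fun f => by
      change ‖w₀ (e f x)‖ ≤ C * ‖f‖
      calc ‖w₀ (e f x)‖ ≤ ‖w₀‖ * ‖e f x‖ := w₀.le_opNorm _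
        _ ≤ 1 * (C * ‖f‖) := mul_le_mul hw₀ (he.sup_le f x) (norm_nonneg _) zero_le_one
        _ = C * ‖f‖ := one_mul _)

theorem ev_apply (hC : 0 ≤ C) (he : AdmT C e) (w₀ : V →L[ℝ] ℝ) (hw₀ : ‖w₀‖ ≤ 1)
    (x : Fin D → ℤˣ) (f : E) : ev hC he w₀ hw₀ x f = w₀ (e f x) := rfl

theorem norm_ev_le (hC : 0 ≤ C) (he : AdmT C e) (w₀ : V →L[ℝ] ℝ) (hw₀ : ‖w₀‖ ≤ 1)
    (x : Fin D → ℤˣ) : ‖ev hC he w₀ hw₀ x‖ ≤ C :=
  LinearMap.mkContinuous_norm_le _ hC _

/-- Restriction of a functional to `χ_S ⊗ V`. -/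
noncomputable def rs (_hC : 0 ≤ C) (he : AdmT C e) (S : Fin D → ℤˣ) (φ : E →L[ℝ] ℝ) : V →L[ℝ] ℝ :=
  LinearMap.mkContinuous (φ.toLinearMap ∘ₗ ch e S) (‖φ‖ * C) (fun v => by
    change ‖φ (ch e S v)‖ ≤ ‖φ‖ * C * ‖v‖
    rw [mul_assoc]
    exact (φ.le_opNorm _).trans (mul_le_mul_of_nonneg_left (norm_ch_le he S v) (norm_nonneg _)))

theorem rs_apply (hC : 0 ≤ C) (he : AdmT C e) (S : Fin D → ℤˣ) (φ : E →L[ℝ] ℝ) (v : V) :
    rs hC he S φ v = φ (ch e S v) := rfl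

theorem norm_rs_le (hC : 0 ≤ C) (he : AdmT C e) (S : Fin D → ℤˣ) (φ : E →L[ℝ] ℝ) :
    ‖rs hC he S φ‖ ≤ ‖φ‖ * C :=
  LinearMap.mkContinuous_norm_le _ (mul_nonneg (norm_nonneg _) hC) _

theorem rs_avg {Ω : Type*} [Fintype Ω] (hC : 0 ≤ C) (he : AdmT C e) (S : Fin D → ℤˣ)
    (s : Ω → ℝ) (φ : Ω → (E →L[ℝ] ℝ)) :
    rs hC he S (avg fun ω => s ω • φ ω) = avg fun ω => s ω • rs hC he S (φ ω) := by
  ext v
  rw [rs_apply, avg_apply', avg_apply']
  rfl

end vlift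

end Vale.Agent.P111.TI2
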