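import Vale.Agent.P111.TI2.Asm
import Vale.Agent.P111.TI2.Lift
import Vale.Agent.P111.TI2.Count
import Vale.Agent.P111.TW.Generic
import Vale.Agent.P111.TK.I

/-!
Translation invariant norms on functions on the cube with values in a `K`-convex space.
-/

set_option linter.unusedSectionVars false

namespace Vale.Agent.P111.TI2

open Finset Vale.Agent.P111 Vale.Agent.P111.TK Vale.Agent.P111.TW

/-- The number of independent large coefficients is at most `s₀`. -/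
def RC (W : Type*) [NormedAddCommGroup W] [NormedSpace ℝ W] (β ε : ℝ) (s₀ : ℕ) : Prop :=
  ∀ (s : ℕ) (ψ : (Fin s → ℤˣ) → W), (∀ x, ‖ψ x‖ ≤ β) → (∀ i, ε < ‖wc {i} ψ‖) → s ≤ s₀

section count

variable {D M M' : ℕ} {W : Type*} [NormedAddCommGroup W] [NormedSpace ℝ W] {β ε : ℝ} {s₀ : ℕ}

theorem count_cube (h : RC W β ε s₀) (ψ : (Fin D → ℤˣ) → W) (hψ : ∀ x, ‖ψ x‖ ≤ β) :
    #(Finset.univ.filter fun b : Fin D → ℤˣ =>
      ε < ‖avg fun x : Fin D → ℤˣ => sg (chi b x) • ψ x‖) ≤ 2 ^ s₀ := by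
  refine card_le_of_indep fun s J hJB hJ => h s (fold J ψ) (norm_fold_le hJ hψ) fun i => ?_
  rw [wc_fold]
  exact (Finset.mem_filter.mp (hJB i)).2

theorem count_array (h : RC W β ε s₀) (ψ : (Fin M' → Fin D → ℤˣ) → W)
    (hψ : ∀ x, ‖ψ x‖ ≤ β) :
    #(Finset.univ.filter fun b : Fin M' → Fin D → ℤˣ =>
      ε < ‖avg fun x : Fin M' → Fin D → ℤˣ => Chi b x • ψ x‖) ≤ 2 ^ s₀ := by
  refine le_trans (Finset.card_le_card_of_injOn (flat M' D) ?_ (flat M' D).injective.injOn)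
    (count_cube h (fun y : Fin (M' * D) → ℤˣ => ψ ((flat M' D).symm y)) fun y => hψ _)
  intro b hb
  rw [Finset.coe_filter] at hb ⊢
  refine ⟨Finset.mem_univ _, ?_⟩
  have h1 : (avg fun x : Fin (M' * D) → ℤˣ => sg (chi (flat M' D b) x) •
      ψ ((flat M' D).symm x)) = avg fun x : Fin M' → Fin D → ℤˣ => Chi b x • ψ x := by
    rw [← avg_comp_equiv (flat M' D)]
    refine avg_congr fun x => ?_
    rw [chi_flat, Equiv.symm_apply_apply]
  rw [h1]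
  exact hb.2

/-- The product of the columns. -/
theorem prod_JG (J : Fin M → Fin D → ℤˣ) (g : Fin M' → Finset (Fin M)) :
    ∏ k, JG J g k = JT J (oddT g) := by
  funext d
  rw [Finset.prod_apply]
  simp only [JG, JT, Finset.prod_apply]
  have h1 : sg (∏ k, ∏ i ∈ g k, J i d) = sg (∏ i ∈ oddT g, J i d) := by
    rw [H1.sg_prod, H1.sg_prod]
    simp only [H1.sg_prod]
    exact prod_rows g fun i => J i d
  have h2 := h1
  simp only [sg] at h2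
  exact Units.ext (by exact_mod_cast h2)

end count

section main

variable {D M M' : ℕ} {V E : Type*} [NormedAddCommGroup V] [NormedSpace ℝ V]
    [NormedAddCommGroup E] [NormedSpace ℝ E] {e : E ≃ₗ[ℝ] ((Fin D → ℤˣ) → V)} {C : ℝ}

theorem norm_le_ch (he : AdmT C e) (S : Fin D → ℤˣ) (v : V) : ‖v‖ ≤ C * ‖ch e S v‖ := by
  have h1 := he.sup_le (ch e S v) 1
  have h2 : e (ch e S v) 1 = v := by
    rw [e_ch, chi_one_right]
    simp
  rwa [h2] at h1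

theorem incl_wc (U : Finset (Fin M)) (Z : (Fin M → ℤˣ) → E) :
    (wc U fun x => NormedSpace.inclusionInDoubleDual ℝ E (Z x)) =
      NormedSpace.inclusionInDoubleDual ℝ E (wc U Z) := by
  have h1 : NormedSpace.inclusionInDoubleDual ℝ E (wc U Z) =
      avg fun x => NormedSpace.inclusionInDoubleDual ℝ E (walsh U x • Z x) :=
    Vale.Agent.P111.map_avg (NormedSpace.inclusionInDoubleDual ℝ E).toLinearMap _
  rw [h1, wc]
  exact avg_congr fun x => (map_smul (NormedSpace.inclusionInDoubleDual ℝ E) _ _).symm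

/-- The estimate of the pairings away from the bad set. -/
theorem pairing_le (hC : 0 ≤ C) (he : AdmT C e) {J : Fin M → Fin D → ℤˣ}
    {ν : (Fin M' → Fin D → ℤˣ) → (Fin M' → ℤˣ) → (E →L[ℝ] ℝ)} {Z : (Fin M → ℤˣ) → E}
    {c : Finset (Fin M) → V} {β₁ ε : ℝ} (hε : 0 ≤ ε) (hZ : ∀ x, ‖Z x‖ ≤ β₁)
    (hc : ∀ T, wc T Z = ch e (JT J T) (c T)) (g : Fin M' → Finset (Fin M))
    (hg : ¬ ∃ U, ε < ‖avg fun x : Fin M' → Fin D → ℤˣ =>
      Chi (JG J g) x • rs hC he (∏ k, JG J g k) (wc U (ν x))‖) :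
    |(wc (oddT g) fun x => NormedSpace.inclusionInDoubleDual ℝ E (Z x))
      (nh ν (oddU g) (JG J g))| ≤ ε * (C * β₁) := by
  push Not at hg
  have h1 := incl_wc (oddT g) Z
  have h2 : NormedSpace.inclusionInDoubleDual ℝ E (wc (oddT g) Z) (nh ν (oddU g) (JG J g)) =
      rs hC he (∏ k, JG J g k) (nh ν (oddU g) (JG J g)) (c (oddT g)) := by
    rw [rs_apply, prod_JG, ← hc]
    rfl
  rw [h1, h2, nh, rs_avg, ← Real.norm_eq_abs]
  refine (ContinuousLinearMap.le_opNorm _ _).trans ?_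
  refine mul_le_mul (hg (oddU g)) ?_ (norm_nonneg _) hε
  refine (norm_le_ch he (JT J (oddT g)) _).trans ?_
  rw [← hc]
  exact mul_le_mul_of_nonneg_left (norm_wc_le _ _ hZ) hC

theorem bad_card (hC : 0 ≤ C) (he : AdmT C e) {β ε : ℝ} {s₀ : ℕ}
    (hrc : RC (V →L[ℝ] ℝ) (β * C) ε s₀)
    (ν : (Fin M' → Fin D → ℤˣ) → (Fin M' → ℤˣ) → (E →L[ℝ] ℝ)) (hν : ∀ x δ, ‖ν x δ‖ ≤ β) :
    #(Finset.univ.filter fun b : Fin M' → Fin D → ℤˣ => ∃ U,
      ε < ‖avg fun x : Fin M' → Fin D → ℤˣ => Chi b x • rs hC he (∏ k, b k) (wc U (ν x))‖) ≤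
      2 ^ M' * (2 ^ D * 2 ^ s₀) := by
  classical
  have h1 : (Finset.univ.filter fun b : Fin M' → Fin D → ℤˣ => ∃ U,
      ε < ‖avg fun x : Fin M' → Fin D → ℤˣ => Chi b x • rs hC he (∏ k, b k) (wc U (ν x))‖) ⊆
      (Finset.univ : Finset (Finset (Fin M'))).biUnion fun U =>
        (Finset.univ : Finset (Fin D → ℤˣ)).biUnion fun S =>
          Finset.univ.filter fun b : Fin M' → Fin D → ℤˣ =>
            ε < ‖avg fun x : Fin M' → Fin D → ℤˣ => Chi b x • rs hC he S (wc U (ν x))‖ := by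
    intro b hb
    obtain ⟨U, hU⟩ := (Finset.mem_filter.mp hb).2
    exact Finset.mem_biUnion.mpr ⟨U, Finset.mem_univ _, Finset.mem_biUnion.mpr
      ⟨∏ k, b k, Finset.mem_univ _, Finset.mem_filter.mpr ⟨Finset.mem_univ _, hU⟩⟩⟩
  refine (Finset.card_le_card h1).trans (Finset.card_biUnion_le.trans ?_)
  have h2 : ∀ U ∈ (Finset.univ : Finset (Finset (Fin M'))),
      #((Finset.univ : Finset (Fin D → ℤˣ)).biUnion fun S =>
          Finset.univ.filter fun b : Fin M' → Fin D → ℤˣ =>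
            ε < ‖avg fun x : Fin M' → Fin D → ℤˣ => Chi b x • rs hC he S (wc U (ν x))‖) ≤
        2 ^ D * 2 ^ s₀ := by
    intro U _
    refine Finset.card_biUnion_le.trans ?_
    refine (Finset.sum_le_sum fun S _ => count_array hrc
      (fun x : Fin M' → Fin D → ℤˣ => rs hC he S (wc U (ν x))) fun x => ?_).trans ?_
    · refine (norm_rs_le hC he S _).trans (mul_le_mul_of_nonneg_right ?_ hC)
      exact norm_wc_le U _ (hν x)
    · rw [Finset.sum_const, smul_eq_mul, Finset.card_univ, Fintype.card_fun, Fintype.card_fin,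
        Fintype.card_units_int]
  refine (Finset.sum_le_sum h2).trans ?_
  rw [Finset.sum_const, smul_eq_mul, Finset.card_univ, Fintype.card_finset, Fintype.card_fin]

universe v w

/-- The theorem, for spaces with few large Rademacher coefficients. -/
theorem main_rc (q r C : ℝ) (hq : 2 ≤ q) (hr : 2 ≤ r) (hC : 1 ≤ C) : ∃ β ε : ℝ, 0 ≤ β ∧ 0 < ε ∧
    ∀ s₀ : ℕ, ∃ D₀ : ℕ, ∀ D ≥ D₀,
    ∀ (V : Type v) [NormedAddCommGroup V] [NormedSpace ℝ V] [Nontrivial V],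
      RC (V →L[ℝ] ℝ) β ε s₀ →
    ∀ (E : Type w) [NormedAddCommGroup E] [NormedSpace ℝ E] (e : E ≃ₗ[ℝ] ((Fin D → ℤˣ) → V)),
      AdmT C e → CotypeWith q C E → ¬ CotypeWith r C (E →L[ℝ] ℝ) := by
  have hC0 : 0 ≤ C := by linarith
  have h43 : 1 ≤ 4 * C ^ 3 := by
    have h13 : 1 ≤ C ^ 3 := one_le_pow₀ hC
    linarith
  obtain ⟨M, M', hM, hM', hcore⟩ := SY.vcore' q r (4 * C ^ 3) hq hr h43
  obtain ⟨hn1, hn2, hn3⟩ := SY.numerics C _ _ hC (SY.rpow_ge_one hM hr) (SY.rpow_ge_one hM' hq)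
  obtain ⟨β₁, hβ₁⟩ : ∃ β₁ : ℝ, β₁ = 3 * C ^ 2 * (M : ℝ) ^ (1 - 1 / r) + 1 := ⟨_, rfl⟩
  obtain ⟨β₂, hβ₂⟩ : ∃ β₂ : ℝ, β₂ = 3 * C * C * (M' : ℝ) ^ (1 - 1 / q) := ⟨_, rfl⟩
  rw [← hβ₁] at hn1 hn2 hn3
  rw [← hβ₂] at hn2 hn3
  have hβ₁0 : 0 < β₁ := by rw [hβ₁]; positivity
  have hβ₂0 : 0 ≤ β₂ := by rw [hβ₂]; positivity
  obtain ⟨P, hP⟩ : ∃ P : ℝ, P = ((2 : ℝ) ^ M) ^ M' := ⟨_, rfl⟩
  have hP0 : 0 < P := by rw [hP]; positivity
  have hCβ : 0 < C * β₁ := by positivity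
  obtain ⟨L, hL1, hL⟩ := TW.generic M M'
  refine ⟨β₂ * C, (P * (C * β₁))⁻¹, by positivity, by positivity, ?_⟩
  intro s₀
  obtain ⟨D₀, hD₀⟩ := pow_unbounded_of_one_lt (L * (2 ^ M' * 2 ^ s₀)) (one_lt_two (α := ℝ))
  refine ⟨D₀, ?_⟩
  intro D hD V _ _ _ hrc E _ _ e he hE hE'
  obtain ⟨v, hv⟩ := exists_ne (0 : V)
  obtain ⟨v₀, hv₀n⟩ : ∃ v₀ : V, ‖v₀‖ = 1 := ⟨‖v‖⁻¹ • v, norm_smul_inv_norm hv⟩
  obtain ⟨w₀, hw₀, hwv⟩ := exists_dual_vector'' ℝ v₀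
  have hwv' : w₀ v₀ = 1 := by
    rw [hwv, hv₀n]
    simp
  have hlift : ∀ x : Fin M' → Fin D → ℤˣ, ∃ ν : (Fin M' → ℤˣ) → (E →L[ℝ] ℝ),
      (∀ δ, ‖ν δ‖ ≤ 3 * C * C * (M' : ℝ) ^ (1 - 1 / q)) ∧ (∀ δ, ν (-δ) = - ν δ) ∧
      ∀ k, wc {k} ν = ev hC0 he w₀ hw₀ (x k) := fun x =>
    lift_sup hq hC0 hC0 hE (fun k => ev hC0 he w₀ hw₀ (x k)) (fun k =>
      norm_ev_le hC0 he w₀ hw₀ _)
  choose ν hν1 hν2 hν3 using hlift
  rw [← hβ₂] at hν1
  -- the bad set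
  obtain ⟨B, hB⟩ : ∃ B : Finset (Fin M' → Fin D → ℤˣ), B = Finset.univ.filter
      fun b : Fin M' → Fin D → ℤˣ => ∃ U, (P * (C * β₁))⁻¹ < ‖avg fun x : Fin M' → Fin D → ℤˣ =>
        Chi b x • rs hC0 he (∏ k, b k) (wc U (ν x))‖ := ⟨_, rfl⟩
  have hBc : #B ≤ 2 ^ M' * (2 ^ D * 2 ^ s₀) := by
    rw [hB]
    exact bad_card hC0 he hrc ν hν1
  have hcardD : (#(Finset.univ : Finset (Fin D → ℤˣ)) : ℝ) = 2 ^ D := by
    rw [Finset.card_univ, Fintype.card_fun, Fintype.card_fin, Fintype.card_units_int]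
    push_cast
    rfl
  have hDL : L * (2 ^ M' * 2 ^ s₀) < (2:ℝ) ^ D :=
    lt_of_lt_of_le hD₀ (pow_le_pow_right₀ one_le_two hD)
  have h1s : (1:ℝ) ≤ 2 ^ M' * 2 ^ s₀ := one_le_mul_of_one_le_of_one_le
    (one_le_pow₀ one_le_two) (one_le_pow₀ one_le_two)
  obtain ⟨J, -, hJ, hJB⟩ := hL D Finset.univ B (by
    rw [hcardD]
    nlinarith) (by
    rw [hcardD]
    have h2D : (0:ℝ) < 2 ^ D := by positivity
    have h3 : (#B : ℝ) ≤ 2 ^ M' * (2 ^ D * 2 ^ s₀) := by exact_mod_cast hBc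
    calc L * (#B : ℝ) ≤ L * (2 ^ M' * (2 ^ D * 2 ^ s₀)) :=
          mul_le_mul_of_nonneg_left h3 (by linarith)
      _ = (L * (2 ^ M' * 2 ^ s₀)) * 2 ^ D := by ring
      _ < 2 ^ D * 2 ^ D := mul_lt_mul_of_pos_right hDL h2D
      _ = (2 ^ D) ^ 2 := by ring)
  obtain ⟨c, Z, hZ1, hZ2, hZ3, hZ4⟩ := u_lift hr hC he hE' J v₀ hv₀n
  rw [← hβ₁] at hZ1
  have hgen : ∀ g : Fin M' → Finset (Fin M), Two g →
      |(wc (oddT g) fun x => NormedSpace.inclusionInDoubleDual ℝ E (Z x))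
        (nh ν (oddU g) (JG J g))| ≤ (P * (C * β₁))⁻¹ * (C * β₁) := by
    intro g hg
    refine pairing_le hC0 he (by positivity) hZ1 hZ3 g ?_
    have h1 := hJB g hg
    rw [hB, Finset.mem_filter, not_and] at h1
    exact h1 (Finset.mem_univ _)
  have hζη : ∀ i, (wc {i} fun x => NormedSpace.inclusionInDoubleDual ℝ E (Z x))
      (avg fun x : Fin D → ℤˣ => sg (chi (J i) x) • ev hC0 he w₀ hw₀ x) = 1 := by
    intro i
    rw [incl_wc, hZ3 {i}, hZ4 i]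
    change (avg fun x : Fin D → ℤˣ => sg (chi (J i) x) • ev hC0 he w₀ hw₀ x)
      (ch e (JT J {i}) v₀) = 1
    rw [avg_apply']
    have h2 : ∀ x : Fin D → ℤˣ, (sg (chi (J i) x) • ev hC0 he w₀ hw₀ x) (ch e (JT J {i}) v₀) =
        1 := by
      intro x
      rw [_root_.smul_apply, ev_apply, e_ch, map_smul, hwv', JT, Finset.prod_singleton,
        smul_eq_mul, smul_eq_mul, mul_one, sg_mul_self]
    rw [avg_congr h2]
    exact avg_const _
  have hyp := vhyp' (ν := ν) (η := fun x => ev hC0 he w₀ hw₀ x)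
    (Z := fun x => NormedSpace.inclusionInDoubleDual ℝ E (Z x)) (β₁ := β₁) (β₂ := β₂) (b := C)
    hJ (fun x => norm_ev_le hC0 he w₀ hw₀ x) hζη
    (fun x => (NormedSpace.double_dual_bound ℝ E (Z x)).trans (hZ1 x)) hν1 (by positivity)
    (fun x => by rw [hZ2, map_neg]) hν2 hν3 hgen
  refine hcore _ _ (hyp.mono ?_ ?_ ?_)
  · rw [mul_comm]
    exact hn1
  · refine le_trans ?_ hn2
    have h1 : 0 ≤ β₂ * β₁ := by positivity
    have h2 : 1 ≤ C * C := one_le_mul_of_one_le_of_one_le hC hC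
    calc β₁ * β₂ = β₂ * β₁ * 1 := by ring
      _ ≤ β₂ * β₁ * (C * C) := mul_le_mul_of_nonneg_left h2 h1
      _ = β₂ * (C * (C * β₁)) := by ring
  · refine le_trans (le_of_eq ?_) hn3
    rw [← hP]
    have : P * ((P * (C * β₁))⁻¹ * (C * β₁)) = 1 := by
      field_simp
    rw [this]
    ring

/-- The dual of `V` embeds into the dual of `E`. -/
theorem cotype_dual_V {r : ℝ} (hr : 2 ≤ r) (hC : 1 ≤ C) (he : AdmT C e)
    (hE : CotypeWith r C (E →L[ℝ] ℝ)) : CotypeWith r (C * (C * C)) (V →L[ℝ] ℝ) := by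
  have hC0 : 0 ≤ C := by linarith
  have hr0 : 0 < r := by linarith
  -- the embedding
  let j : (V →L[ℝ] ℝ) → (E →L[ℝ] ℝ) := fun w => LinearMap.mkContinuous
    { toFun := fun f => w (e f 1)
      map_add' := fun f g => by rw [map_add, Pi.add_apply, map_add]
      map_smul' := fun s f => by rw [map_smul, Pi.smul_apply, map_smul, RingHom.id_apply] }
    (‖w‖ * C) (fun f => by
      change ‖w (e f 1)‖ ≤ ‖w‖ * C * ‖f‖
      rw [mul_assoc]
      exact (w.le_opNorm _).trans (mul_le_mul_of_nonneg_left (he.sup_le f 1) (norm_nonneg _)))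
  have hj : ∀ w f, j w f = w (e f 1) := fun w f => rfl
  have hj1 : ∀ w, ‖j w‖ ≤ ‖w‖ * C := fun w =>
    LinearMap.mkContinuous_norm_le _ (mul_nonneg (norm_nonneg _) hC0) _
  have hj2 : ∀ w, ‖w‖ ≤ C * ‖j w‖ := by
    intro w
    refine w.opNorm_le_bound (by positivity) fun v => ?_
    have h1 : w v = j w (ch e 1 v) := by
      rw [hj, e_ch, chi_one_left]
      simp
    rw [h1]
    calc ‖j w (ch e 1 v)‖ ≤ ‖j w‖ * ‖ch e 1 v‖ := (j w).le_opNorm _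
      _ ≤ ‖j w‖ * (C * ‖v‖) := mul_le_mul_of_nonneg_left (norm_ch_le he 1 v) (norm_nonneg _)
      _ = C * ‖j w‖ * ‖v‖ := by ring
  intro n y
  have h3 := hE n fun i => j (y i)
  have h4 : (∑ i, ‖y i‖ ^ r) ^ (1 / r) ≤ C * (∑ i, ‖j (y i)‖ ^ r) ^ (1 / r) := by
    have h5 : C * (∑ i, ‖j (y i)‖ ^ r) ^ (1 / r) = (∑ i, (C * ‖j (y i)‖) ^ r) ^ (1 / r) := by
      have h6 : ∑ i, (C * ‖j (y i)‖) ^ r = C ^ r * ∑ i, ‖j (y i)‖ ^ r := by
        rw [Finset.mul_sum]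
        exact Finset.sum_congr rfl fun i _ => Real.mul_rpow hC0 (norm_nonneg _)
      rw [h6, Real.mul_rpow (by positivity) (Finset.sum_nonneg fun _ _ => by positivity),
        ← Real.rpow_mul hC0, mul_one_div_cancel hr0.ne', Real.rpow_one]
    rw [h5]
    refine Real.rpow_le_rpow (Finset.sum_nonneg fun _ _ => by positivity) ?_ (by positivity)
    exact Finset.sum_le_sum fun i _ => Real.rpow_le_rpow (norm_nonneg _) (hj2 _) hr0.le
  refine h4.trans ?_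
  calc C * (∑ i, ‖j (y i)‖ ^ r) ^ (1 / r)
      ≤ C * (C * (avg fun ε : Fin n → ℤˣ => ‖∑ i, sg (ε i) • j (y i)‖ ^ 2) ^ (1 / 2 : ℝ)) :=
        mul_le_mul_of_nonneg_left h3 hC0
    _ ≤ C * (C * (C * (avg fun ε : Fin n → ℤˣ => ‖∑ i, sg (ε i) • y i‖ ^ 2) ^ (1 / 2 : ℝ))) := by
        refine mul_le_mul_of_nonneg_left (mul_le_mul_of_nonneg_left ?_ hC0) hC0
        have h6 : (avg fun ε : Fin n → ℤˣ => ‖∑ i, sg (ε i) • j (y i)‖ ^ 2) ≤
            C ^ 2 * avg fun ε : Fin n → ℤˣ => ‖∑ i, sg (ε i) • y i‖ ^ 2 := by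
          rw [← avg_mul_left]
          refine avg_mono fun ε => ?_
          have h5 : ∑ i, sg (ε i) • j (y i) = j (∑ i, sg (ε i) • y i) := by
            ext f
            rw [hj]
            simp only [_root_.sum_apply, _root_.smul_apply, hj]
          rw [h5, ← mul_pow]
          have := hj1 (∑ i, sg (ε i) • y i)
          rw [mul_comm] at this
          gcongr
        refine (Real.rpow_le_rpow (avg_nonneg fun _ => sq_nonneg _) h6 (by norm_num)).trans ?_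
        rw [Real.mul_rpow (by positivity) (avg_nonneg fun _ => sq_nonneg _),
          ← Real.sqrt_eq_rpow (C ^ 2), Real.sqrt_sq hC0]
    _ = C * (C * C) * (avg fun ε : Fin n → ℤˣ => ‖∑ i, sg (ε i) • y i‖ ^ 2) ^ (1 / 2 : ℝ) := by
        ring

/-- Theorem TIK. -/
theorem main (q r C K : ℝ) (hq : 2 ≤ q) (hr : 2 ≤ r) (hC : 1 ≤ C) (hK : 0 ≤ K) : ∃ D₀ : ℕ,
    ∀ D ≥ D₀, ∀ (V : Type v) [NormedAddCommGroup V] [NormedSpace ℝ V] [Nontrivial V],
      KConvexWith K V →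
    ∀ (E : Type w) [NormedAddCommGroup E] [NormedSpace ℝ E] (e : E ≃ₗ[ℝ] ((Fin D → ℤˣ) → V)),
      AdmT C e → CotypeWith q C E → ¬ CotypeWith r C (E →L[ℝ] ℝ) := by
  have hC0 : 0 ≤ C := by linarith
  obtain ⟨β, ε, hβ, hε, hmain⟩ := main_rc.{v, w} q r C hq hr hC
  obtain ⟨s₀, hs₀⟩ := exists_nat_ge ((C * (C * C) * (2 * (β * K)) / ε) ^ r)
  obtain ⟨D₀, hD₀⟩ := hmain s₀
  refine ⟨D₀, ?_⟩
  intro D hD V _ _ _ hV E _ _ e he hE hE'
  refine hD₀ D hD V ?_ E e he hE hE'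
  intro s ψ hψ h
  have h1 := rad_count hr (by positivity) hK hβ hε hV (cotype_dual_V hr hC he hE') ψ hψ
    fun i => (h i).le
  exact_mod_cast h1.trans hs₀

end main

end Vale.Agent.P111.TI2
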